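import Vale.Agent.P181.TRT.Defs
import Vale.Agent.P181.TR.H88.TR1

set_option autoImplicit false

/-!
# P181, TRT: (TR2) products of separating families (helper342)
-/

open MvPolynomial

namespace Vale.Agent.P181.TRT.H342

open Vale.Agent.P181.TL (KK)
open Vale.Agent.P181.SZR5b (col_iff HW_one)
open Vale.Agent.P181.TR.H88 (kk_mul)

section

variable {m : ℕ} {σ : Type} [Fintype σ]

theorem kk_one : (1 : MvPolynomial (Fin m × σ) ℂ) ∈ KK m σ 0 0 := by
  classical
  exact ⟨HW_one, (col_iff (d := 0)).2 (isWeightedHomogeneous_one _ _)⟩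

theorem kk_prod {ι : Type} (S : Finset ι) {dl : ι → Fin m → ℕ} {c : ι → σ → ℕ}
    {u : ι → MvPolynomial (Fin m × σ) ℂ} (hu : ∀ f ∈ S, u f ∈ KK m σ (c f) (dl f)) :
    ∏ f ∈ S, u f ∈ KK m σ (∑ f ∈ S, c f) (∑ f ∈ S, dl f) := by
  classical
  induction S using Finset.induction_on with
  | empty => simpa using kk_one
  | insert a S ha ih =>
    rw [Finset.prod_insert ha, Finset.sum_insert ha, Finset.sum_insert ha]
    exact kk_mul (hu a (Finset.mem_insert_self _ _))
      (ih fun i hi => hu i (Finset.mem_insert_of_mem hi))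

end

/-- **(TR2)** -/
theorem sepProd : SepProd := by
  intro m σ _ k ι _ dl c E h
  classical
  choose I hI u v hu h0 h1 using h
  have key : ∀ φ : MvPolynomial (Fin m × σ) ℂ →ₐ[ℂ] MvPolynomial (Fin m × σ) ℂ,
      ∑ x : ∀ f, I f, (∏ f, v f (x f)) * φ (∏ f, u f (x f)) =
        ∏ f, ∑ i, v f i * φ (u f i) := by
    intro φ
    rw [Finset.prod_univ_sum, Fintype.piFinset_univ]
    refine Finset.sum_congr rfl fun x _ => ?_
    rw [map_prod, Finset.prod_mul_distrib]
  refine ⟨∀ f, I f, inferInstance, fun x => ∏ f, u f (x f), fun x => ∏ f, v f (x f),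
    fun x => kk_prod _ fun f _ => hu f (x f), fun e he hE => ?_, ?_⟩
  · obtain ⟨f, hf⟩ := Set.mem_iUnion.1 hE
    have h2 := key (rename (fun p : Fin m × σ => (p.1, e p.2)))
    refine h2.trans ?_
    exact Finset.prod_eq_zero (Finset.mem_univ f) (h0 f e he hf)
  · have h2 := key (AlgHom.id ℂ _)
    simp only [AlgHom.coe_id, id_eq] at h2
    rw [h2]
    exact Finset.prod_ne_zero_iff.2 fun f _ => h1 f

end Vale.Agent.P181.TRT.H342
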