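import Vale.Agent.P181.TRT.H342.Sep

set_option autoImplicit false

/-!
# P181, TRT: (TR4) short columns, from (TR2) and (TR3) (helper342)
-/

open MvPolynomial

namespace Vale.Agent.P181.TRT.H342

theorem sep_mono {m : ℕ} {σ : Type} [Fintype σ] {k : σ → ℕ} {dl : Fin m → ℕ} {c : σ → ℕ}
    {E E' : Set (Equiv.Perm σ)} (h : Sep m k dl c E)
    (hE : ∀ e : Equiv.Perm σ, (∀ j, k (e j) = k j) → e ∈ E' → e ∈ E) : Sep m k dl c E' := by
  obtain ⟨I, _, u, v, h1, h2, h3⟩ := h
  exact ⟨I, inferInstance, u, v, h1, fun e he he' => h2 e he (hE e he he'), h3⟩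

theorem card_fin (N a b : ℕ) (hb : b ≤ N) :
    (Finset.univ.filter fun x : Fin N => a ≤ x.1 ∧ x.1 < b).card = b - a := by
  rw [← Nat.card_Ico a b, ← Finset.card_map Fin.valEmbedding]
  congr 1
  ext x
  simp only [Finset.mem_map, Finset.mem_filter, Finset.mem_univ, true_and, Fin.valEmbedding_apply,
    Finset.mem_Ico]
  constructor
  · rintro ⟨y, hy, rfl⟩
    exact hy
  · intro hx
    exact ⟨⟨x, by omega⟩, hx, rfl⟩

open scoped Classical in
/-- The references `a, …, b - 1` of a group. -/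
noncomputable def Q {σ : Type} {ρ : ℕ} (ref : Fin (ρ + 1) → σ) (a b : ℕ) : Finset σ :=
  (Finset.univ.filter fun x : Fin (ρ + 1) => a ≤ x.1 ∧ x.1 < b).image ref

theorem mem_Q {σ : Type} {ρ : ℕ} {ref : Fin (ρ + 1) → σ} {a b : ℕ} {j : σ} :
    j ∈ Q ref a b ↔ ∃ x : Fin (ρ + 1), (a ≤ x.1 ∧ x.1 < b) ∧ ref x = j := by
  classical
  rw [Q, Finset.mem_image]
  simp

theorem card_Q {σ : Type} {ρ : ℕ} {ref : Fin (ρ + 1) → σ} (hr : Function.Injective ref) (a b : ℕ)
    (hb : b ≤ ρ + 1) : (Q ref a b).card = b - a := by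
  classical
  rw [Q, Finset.card_image_of_injective _ hr, card_fin _ _ _ hb]

theorem disj_Q {σ : Type} {ρ : ℕ} {ref : Fin (ρ + 1) → σ} (hr : Function.Injective ref)
    (a b c : ℕ) : Disjoint (Q ref a b) (Q ref b c) := by
  classical
  rw [Finset.disjoint_left]
  intro j h1 h2
  obtain ⟨x, hx, rfl⟩ := mem_Q.1 h1
  obtain ⟨y, hy, hxy⟩ := mem_Q.1 h2
  have := hr hxy
  subst this
  omega

open scoped Classical in
theorem one_block (hB : BlockT) {m ρ : ℕ} {σ : Type} [Fintype σ] {k : σ → ℕ}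
    {ref : Fin (ρ + 1) → σ} (hr : Function.Injective ref)
    (hs : ∀ x j, k j = k (ref x) → j = ref x) (j₀ i₀ : σ) (hne : j₀ ≠ i₀) (hk : k j₀ = k i₀)
    (l l' : ℕ) (hl : 2 ≤ l ∧ l ≤ ρ ∧ l ≤ m) (hl' : 2 ≤ l' ∧ l' ≤ ρ ∧ l' ≤ m) :
    ∃ c : σ → ℕ, (∀ j, c j ≤ (if j = j₀ then 1 else 0) + if ∃ x, ref x = j then 2 else 0) ∧
      Sep m k (col m l + col m l') c {e | e j₀ = i₀} := by
  have hj : ∀ x, ref x ≠ j₀ := by
    intro x hx
    have h1 := hs x i₀ (by rw [hx, hk])
    exact hne (by rw [h1, hx])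
  have hi : ∀ x, ref x ≠ i₀ := by
    intro x hx
    have h1 := hs x j₀ (by rw [hx, hk])
    exact hne (by rw [h1, hx])
  have hjQ : ∀ a b, j₀ ∉ Q ref a b := by
    intro a b h
    obtain ⟨x, -, hx⟩ := mem_Q.1 h
    exact hj x hx
  have hiQ : ∀ a b, i₀ ∉ Q ref a b := by
    intro a b h
    obtain ⟨x, -, hx⟩ := mem_Q.1 h
    exact hi x hx
  have hsat : ∀ a b, ∀ p ∈ Q ref a b, ∀ j, k j = k p → j = p := by
    intro a b p hp j hkj
    obtain ⟨x, -, rfl⟩ := mem_Q.1 hp
    exact hs x j hkj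
  have hS := hB m 1 l l' σ k {j₀} {i₀} (Q ref 0 2) (Q ref 2 l) (Q ref 2 (l' + 1))
    (Finset.card_singleton _) (Finset.card_singleton _)
    (by rw [card_Q hr _ _ (by omega)])
    (by rw [card_Q hr _ _ (by omega)]; omega)
    (by rw [card_Q hr _ _ (by omega)]; omega) hl.2.2 hl'.2.2
    (Finset.disjoint_singleton.2 hne)
    (Finset.disjoint_singleton_left.2 (hjQ _ _)) (Finset.disjoint_singleton_left.2 (hiQ _ _))
    (disj_Q hr _ _ _) (disj_Q hr _ _ _) (hsat _ _)
    (fun p hp j hkj => by rw [hsat _ _ p hp j hkj]; exact hp)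
    (fun p hp j hkj => by rw [hsat _ _ p hp j hkj]; exact hp)
  refine ⟨_, fun j => ?_, sep_mono hS fun e _ he => ?_⟩
  · by_cases h0 : j = j₀
    · subst h0
      rw [if_pos (Finset.mem_singleton_self _), if_neg (hjQ 0 2), if_neg (hjQ 2 l),
        if_neg (hjQ 2 (l' + 1)), if_pos rfl]
      omega
    · rw [if_neg (by rwa [Finset.mem_singleton]), if_neg h0]
      by_cases h1 : ∃ x, ref x = j
      · rw [if_pos h1]
        have h2 : ¬ (j ∈ Q ref 0 2 ∧ j ∈ Q ref 2 l) := fun h =>
          Finset.disjoint_left.1 (disj_Q hr 0 2 l) h.1 h.2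
        by_cases h3 : j ∈ Q ref 0 2
        · have h4 : j ∉ Q ref 2 l := fun h => h2 ⟨h3, h⟩
          rw [if_pos h3, if_neg h4]
          split_ifs <;> omega
        · rw [if_neg h3]
          split_ifs <;> omega
      · have h2 : ∀ a b, j ∉ Q ref a b := by
          intro a b h
          obtain ⟨x, -, hx⟩ := mem_Q.1 h
          exact h1 ⟨x, hx⟩
        rw [if_neg (h2 _ _), if_neg (h2 _ _), if_neg (h2 _ _), if_neg h1]
  · exact ⟨j₀, Finset.mem_singleton_self _, by
      have : e j₀ = i₀ := he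
      rw [this]
      exact Finset.mem_singleton_self _⟩

/-- **(TR4)** -/
theorem shortT (hP : SepProd) (hB : BlockT) : ShortT := by
  classical
  intro m M h ρ G σ _ k ref _ len len' hM hr hs hl hl' hc
  -- the groups
  obtain ⟨γ, hγ⟩ : ∃ γ : Prs k → Fin G, ∀ g, (Finset.univ.filter fun p => γ p = g).card ≤ h := by
    rw [Nat.card_eq_fintype_card] at hc
    have h1 : Fintype.card (Prs k) ≤ Fintype.card (Fin G × Fin h) := by
      rw [Fintype.card_prod, Fintype.card_fin, Fintype.card_fin]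
      exact hc
    obtain ⟨f⟩ := Function.Embedding.nonempty_of_card_le h1
    refine ⟨fun p => (f p).1, fun g => ?_⟩
    calc (Finset.univ.filter fun p => (f p).1 = g).card
        ≤ (Finset.univ : Finset (Fin h)).card := by
          refine Finset.card_le_card_of_injOn (fun p => (f p).2) (fun _ _ => Finset.mem_univ _) ?_
          intro p hp q hq hpq
          have hp' : (f p).1 = g := (Finset.mem_filter.1 hp).2
          have hq' : (f q).1 = g := (Finset.mem_filter.1 hq).2
          exact f.injective (Prod.ext (hp'.trans hq'.symm) hpq)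
      _ = h := by rw [Finset.card_univ, Fintype.card_fin]
  have hr' : ∀ g, Function.Injective fun x => ref (g, x) := fun g x y hxy =>
    congrArg Prod.snd (hr hxy)
  choose c hcb hcs using fun p : Prs k => one_block hB (hr' (γ p))
    (fun x j => hs (γ p, x) j) p.1.1 p.1.2 p.2.1 p.2.2 (len p) (len' p) (hl p) (hl' p)
  refine ⟨∑ p, c p, fun j => ?_, ?_⟩
  · rw [Finset.sum_apply]
    refine (Finset.sum_le_sum fun p _ => hcb p j).trans ?_
    rw [Finset.sum_add_distrib]
    refine Nat.add_le_add ?_ ?_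
    · rw [← Finset.card_filter]
      refine le_trans ?_ (hM j)
      refine Finset.card_le_card_of_injOn (fun p => p.1.2) (fun p hp => ?_) ?_
      · have hp' : j = p.1.1 := (Finset.mem_filter.1 hp).2
        refine Finset.mem_filter.2 ⟨Finset.mem_univ _, ?_⟩
        rw [hp']
        exact p.2.2.symm
      · intro p hp q hq hpq
        have hp' : j = p.1.1 := (Finset.mem_filter.1 hp).2
        have hq' : j = q.1.1 := (Finset.mem_filter.1 hq).2
        exact Subtype.ext (Prod.ext (hp'.symm.trans hq') hpq)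
    · by_cases hj : ∃ y, ref y = j
      · obtain ⟨⟨g, x₀⟩, rfl⟩ := hj
        calc ∑ p, (if ∃ x, ref (γ p, x) = ref (g, x₀) then 2 else 0)
            ≤ ∑ p, (if γ p = g then 2 else 0) := by
              refine Finset.sum_le_sum fun p _ => ?_
              by_cases h1 : ∃ x, ref (γ p, x) = ref (g, x₀)
              · obtain ⟨x, hx⟩ := h1
                rw [if_pos ⟨x, hx⟩, if_pos (congrArg Prod.fst (hr hx))]
              · rw [if_neg h1]
                exact Nat.zero_le _
          _ = 2 * (Finset.univ.filter fun p => γ p = g).card := by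
              rw [← Finset.sum_filter, Finset.sum_const, smul_eq_mul, mul_comm]
          _ ≤ 2 * h := Nat.mul_le_mul_left _ (hγ g)
      · rw [Finset.sum_eq_zero]
        · exact Nat.zero_le _
        · intro p _
          rw [if_neg]
          rintro ⟨x, hx⟩
          exact hj ⟨_, hx⟩
  · refine sep_mono (hP m σ k (Prs k) (fun p => col m (len p) + col m (len' p)) c
      (fun p => {e | e p.1.1 = p.1.2}) hcs) fun e he hne => ?_
    have h1 : ∃ j, e j ≠ j := by
      by_contra hcon
      push Not at hcon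
      exact hne (Equiv.ext hcon)
    obtain ⟨j, hj⟩ := h1
    exact Set.mem_iUnion.2 ⟨⟨(j, e j), Ne.symm hj, (he j).symm⟩, rfl⟩

end Vale.Agent.P181.TRT.H342
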